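import Crest.Agent.X212.Int54.Jac
import Crest.Agent.X212.Dr59.Defs

-- ▼ part X212/Int54/Dens
section

/-!
# X212/Int54/Dens (helper54): the measure `dens I a = |top part of a|` of a form `a`

No orientation, no regularity of `a` is needed for the definition, the chart formula
`dens_restrict` and the change of variables `dens_image`, `map_dens`, `setIntegral_image`.
-/

set_option autoImplicit false
set_option linter.unusedSectionVars false

open Set Filter Topology Function Module MeasureTheory
open scoped ContDiff ENNReal Manifold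
open Crest.Agent.R208.F Crest.Agent.X212.Dr59

noncomputable section

namespace Crest.Agent.X212.Int54

theorem ms_inter {α β : Type*} [TopologicalSpace α] [MeasurableSpace α] [OpensMeasurableSpace α]
    [TopologicalSpace β] [MeasurableSpace β] [BorelSpace β] {f : α → β} {s : Set α} {t : Set β}
    (hf : ContinuousOn f s) (hs : MeasurableSet s) (ht : MeasurableSet t) :
    MeasurableSet (s ∩ f ⁻¹' t) := by
  have h1 : MeasurableSet ((s.domRestrict f) ⁻¹' t) := hf.domRestrict.measurable ht
  have h2 := hs.subtype_image h1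
  convert h2 using 1
  ext x
  simp [and_comm]

variable {E : Type*} [NormedAddCommGroup E] [NormedSpace ℝ E] [FiniteDimensional ℝ E]
  [MeasurableSpace E] [BorelSpace E]
  {H : Type*} [TopologicalSpace H] {I : ModelWithCorners ℝ E H} [I.Boundaryless]
  {M : Type*} [TopologicalSpace M] [ChartedSpace H M] [IsManifold I ∞ M]
  [MeasurableSpace M] [BorelSpace M]
  {E' : Type*} [NormedAddCommGroup E'] [NormedSpace ℝ E'] [FiniteDimensional ℝ E']
  [MeasurableSpace E'] [BorelSpace E']
  {H' : Type*} [TopologicalSpace H'] {J : ModelWithCorners ℝ E' H'} [J.Boundaryless]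
  {N : Type*} [TopologicalSpace N] [ChartedSpace H' N] [IsManifold J ∞ N]
  [MeasurableSpace N] [BorelSpace N]

theorem ms_source (x : M) : MeasurableSet (extChartAt I x).source :=
  (isOpen_extChartAt_source x).measurableSet

theorem ms_target (x : M) : MeasurableSet (extChartAt I x).target :=
  (isOpen_extChartAt_target x).measurableSet

variable (I) in
/-- the density of `a` in the chart at `x` -/
def cd (x : M) (a : M → Ext E) (y : E) : ℝ := tp E (rp I x a y)

variable (I) in
/-- the measure of `a` in the chart at `x`, on the model space -/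
def cn (x : M) (a : M → Ext E) : Measure E :=
  ((hm E).restrict (extChartAt I x).target).withDensity fun y => ENNReal.ofReal |cd I x a y|

variable (I) in
/-- the measure of `a` in the chart at `x` -/
def cm (x : M) (a : M → Ext E) : Measure M := (cn I x a).map (extChartAt I x).symm

theorem aemeas_symm (x : M) (a : M → Ext E) : AEMeasurable (extChartAt I x).symm (cn I x a) :=
  (((continuousOn_extChartAt_symm x).aemeasurable (ms_target x))).mono_ac
    (withDensity_absolutelyContinuous _ _)

theorem ms_cimg (x : M) {s : Set M} (hs : MeasurableSet s) :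
    MeasurableSet ((extChartAt I x).target ∩ (extChartAt I x).symm ⁻¹' s) :=
  ms_inter (continuousOn_extChartAt_symm x) (ms_target x) hs

theorem cm_apply (x : M) (a : M → Ext E) {s : Set M} (hs : MeasurableSet s) :
    cm I x a s = ∫⁻ y in (extChartAt I x).target ∩ (extChartAt I x).symm ⁻¹' s,
      ENNReal.ofReal |cd I x a y| ∂(hm E) := by
  rw [cm, Measure.map_apply_of_aemeasurable (aemeas_symm x a) hs]
  have h1 : cn I x a ((extChartAt I x).symm ⁻¹' s) =
      cn I x a ((extChartAt I x).target ∩ (extChartAt I x).symm ⁻¹' s) := by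
    refine measure_congr ?_
    have h2 : ∀ᵐ y ∂(cn I x a), y ∈ (extChartAt I x).target :=
      (withDensity_absolutelyContinuous _ _).ae_le (ae_restrict_mem (ms_target x))
    filter_upwards [h2] with y hy
    exact propext ⟨fun h => ⟨hy, h⟩, fun h => h.2⟩
  rw [h1, cn, withDensity_apply _ (ms_cimg x hs), Measure.restrict_restrict (ms_cimg x hs),
    inter_eq_left.2 inter_subset_left]

theorem cm_inter (x : M) (a : M → Ext E) {s : Set M} (hs : MeasurableSet s) :
    cm I x a (s ∩ (extChartAt I x).source) = cm I x a s := by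
  rw [cm_apply x a hs, cm_apply x a (hs.inter (ms_source x))]
  congr 2
  ext y
  exact ⟨fun h => ⟨h.1, h.2.1⟩, fun h => ⟨h.1, h.2, (extChartAt I x).map_target h.1⟩⟩

theorem tp_pm (h : finrank ℝ E = finrank ℝ E') (f : N → M) (a : M → Ext E) (y : N) :
    tp E' (pm J I f a y) = jac (mf J I f y) * tp E (a (f y)) := tp_pb h _ _

section loc
variable {f : N → M} {s : Set N} {x : M} {z : N}

theorem written_image (hz : s ⊆ (extChartAt J z).source) (hx : f '' s ⊆ (extChartAt I x).source) :
    (extChartAt I x ∘ f ∘ (extChartAt J z).symm) ''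
      ((extChartAt J z).target ∩ (extChartAt J z).symm ⁻¹' s) =
      (extChartAt I x).target ∩ (extChartAt I x).symm ⁻¹' (f '' s) := by
  ext u
  constructor
  · rintro ⟨v, hv, rfl⟩
    have h1 := hx (mem_image_of_mem f hv.2)
    refine ⟨(extChartAt I x).map_source h1, ?_⟩
    rw [mem_preimage, comp_apply, comp_apply, (extChartAt I x).left_inv h1]
    exact mem_image_of_mem f hv.2
  · rintro ⟨hu, w, hw, e⟩
    refine ⟨extChartAt J z w, ⟨(extChartAt J z).map_source (hz hw), ?_⟩, ?_⟩
    · rw [mem_preimage, (extChartAt J z).left_inv (hz hw)]; exact hw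
    · rw [comp_apply, comp_apply, (extChartAt J z).left_inv (hz hw), e,
        (extChartAt I x).right_inv hu]

theorem written_injOn (hi : InjOn f s) (hx : f '' s ⊆ (extChartAt I x).source) :
    InjOn (extChartAt I x ∘ f ∘ (extChartAt J z).symm)
      ((extChartAt J z).target ∩ (extChartAt J z).symm ⁻¹' s) := by
  intro u hu v hv e
  have h1 := (extChartAt I x).injOn (hx (mem_image_of_mem f hu.2)) (hx (mem_image_of_mem f hv.2)) e
  exact (extChartAt J z).symm.injOn hu.1 hv.1 (hi hu.2 hv.2 h1)

theorem written_mdiff (hd : ∀ w ∈ s, MDifferentiableAt J I f w)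
    (hx : f '' s ⊆ (extChartAt I x).source) {u : E'}
    (hu : u ∈ (extChartAt J z).target ∩ (extChartAt J z).symm ⁻¹' s) :
    MDifferentiableAt 𝓘(ℝ, E') 𝓘(ℝ, E) (extChartAt I x ∘ f ∘ (extChartAt J z).symm) u :=
  ((contMDiffAt_chart (hx (mem_image_of_mem f hu.2))).mdifferentiableAt (by simp)).comp u
    ((hd _ hu.2).comp u ((contMDiffAt_chart_symm hu.1).mdifferentiableAt (by simp)))

theorem ms_image_loc (hs : MeasurableSet s) (hd : ∀ w ∈ s, MDifferentiableAt J I f w)
    (hi : InjOn f s) (hz : s ⊆ (extChartAt J z).source) (hx : f '' s ⊆ (extChartAt I x).source) :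
    MeasurableSet (f '' s) := by
  have h1 : MeasurableSet ((extChartAt I x ∘ f ∘ (extChartAt J z).symm) ''
      ((extChartAt J z).target ∩ (extChartAt J z).symm ⁻¹' s)) :=
    (ms_cimg z hs).image_of_continuousOn_injOn
      (fun u hu => (written_mdiff hd hx hu).continuousAt.continuousWithinAt) (written_injOn hi hx)
  rw [written_image hz hx] at h1
  have h2 := ms_inter (continuousOn_extChartAt (I := I) x) (ms_source x) h1
  convert h2 using 1
  ext w
  constructor
  · intro hw
    refine ⟨hx hw, (extChartAt I x).map_source (hx hw), ?_⟩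
    rw [mem_preimage, (extChartAt I x).left_inv (hx hw)]; exact hw
  · rintro ⟨h3, -, h4⟩
    rwa [mem_preimage, (extChartAt I x).left_inv h3] at h4

theorem cm_image_loc (h : finrank ℝ E = finrank ℝ E') (a : M → Ext E) (hs : MeasurableSet s)
    (hd : ∀ w ∈ s, MDifferentiableAt J I f w)
    (hi : InjOn f s) (hz : s ⊆ (extChartAt J z).source) (hx : f '' s ⊆ (extChartAt I x).source) :
    cm I x a (f '' s) = cm J z (pm J I f a) s := by
  rw [cm_apply x a (ms_image_loc hs hd hi hz hx), cm_apply z _ hs, ← written_image hz hx,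
    lintegral_image h (ms_cimg z hs)
      (f' := fun u => fderiv ℝ (extChartAt I x ∘ f ∘ (extChartAt J z).symm) u)
      (fun u hu => (written_mdiff hd hx hu).differentiableAt.hasFDerivAt.hasFDerivWithinAt)
      (written_injOn hi hx)]
  refine setLIntegral_congr_fun (ms_cimg z hs) fun u hu => ?_
  have h1 := hx (mem_image_of_mem f hu.2)
  have c1 := (contMDiffAt_chart_symm hu.1).mdifferentiableAt (by simp)
  have c2 := hd _ hu.2
  have c3 := (contMDiffAt_chart h1).mdifferentiableAt (by simp)
  have e : rp J z (pm J I f a) u =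
      pm 𝓘(ℝ, E') 𝓘(ℝ, E) (extChartAt I x ∘ f ∘ (extChartAt J z).symm) (rp I x a) u := by
    rw [← pm_comp (f := f ∘ (extChartAt J z).symm) c3 (c2.comp u c1), rp, pm_comp c2 c1]
    exact pm_congr_right (pm_chart_rp h1 a).symm
  simp only [cd]
  rw [e, tp_pm h, mf_eq_fderiv, abs_mul, ENNReal.ofReal_mul (abs_nonneg _)]

end loc

theorem cm_agree (a : M → Ext E) {x z : M} {s : Set M} (hs : MeasurableSet s)
    (hz : s ⊆ (extChartAt I z).source) (hx : s ⊆ (extChartAt I x).source) :
    cm I x a s = cm I z a s := by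
  have h := cm_image_loc (J := I) (f := id) (x := x) (z := z) rfl a hs
    (fun _ _ => mdifferentiableAt_id) (injOn_id s) hz (by simpa using hx)
  rwa [image_id, pm_id] at h

variable (I) in
/-- `μ` is the measure of the form `a` -/
def IsDens (a : M → Ext E) (μ : Measure M) : Prop :=
  ∀ x, μ.restrict (extChartAt I x).source = cm I x a

variable (I) in
open Classical in
/-- the measure `|top part of a|` -/
def dens (a : M → Ext E) : Measure M := if h : ∃ μ, IsDens I a μ then h.choose else 0

variable [SecondCountableTopology M] [SecondCountableTopology N]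

variable (I M) in
/-- a countable measurable partition subordinate to the charts -/
theorem exists_part : ∃ D : ℕ → Set M, (∀ n, MeasurableSet (D n)) ∧ Pairwise (Disjoint on D) ∧
    ⋃ n, D n = univ ∧ ∀ n, D n = ∅ ∨ ∃ x, D n ⊆ (extChartAt I x).source := by
  rcases isEmpty_or_nonempty M with hM | hM
  · exact ⟨fun _ => ∅, fun _ => MeasurableSet.empty, fun _ _ _ => disjoint_empty _,
      Subsingleton.elim _ _, fun _ => Or.inl rfl⟩
  obtain ⟨c, hc⟩ := TopologicalSpace.countable_cover_nhds
    (fun x : M => extChartAt_source_mem_nhds (I := I) x)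
  obtain ⟨u, hu⟩ := (hc.1.insert hM.some).exists_eq_range (insert_nonempty _ _)
  refine ⟨disjointed fun n => (extChartAt I (u n)).source,
    MeasurableSet.disjointed fun n => ms_source _, disjoint_disjointed _, ?_,
    fun n => Or.inr ⟨u n, disjointed_subset _ n⟩⟩
  rw [iUnion_disjointed, eq_univ_iff_forall]
  intro x
  have hx : x ∈ ⋃ y ∈ c, (extChartAt I y).source := by rw [hc.2]; trivial
  obtain ⟨y, hy, hxy⟩ := mem_iUnion₂.1 hx
  obtain ⟨n, rfl⟩ : y ∈ range u := hu ▸ mem_insert_of_mem _ hy
  exact mem_iUnion.2 ⟨n, hxy⟩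

theorem measure_part {α : Type*} [MeasurableSpace α] {D : ℕ → Set α}
    (h1 : ∀ n, MeasurableSet (D n)) (h2 : Pairwise (Disjoint on D)) (h3 : ⋃ n, D n = univ)
    (μ : Measure α) {t : Set α} (ht : MeasurableSet t) : μ t = ∑' n, μ (t ∩ D n) := by
  rw [← measure_iUnion (fun i j hij => (h2 hij).mono inter_subset_right inter_subset_right)
    fun n => ht.inter (h1 n), ← inter_iUnion, h3, inter_univ]

theorem exists_isDens (a : M → Ext E) : ∃ μ, IsDens I a μ := by
  classical
  obtain ⟨D, h1, h2, h3, h4⟩ := exists_part I M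
  let ν : ℕ → Measure M := fun n =>
    if h : ∃ x, D n ⊆ (extChartAt I x).source then (cm I h.choose a).restrict (D n) else 0
  refine ⟨Measure.sum ν, fun x => Measure.ext fun t ht => ?_⟩
  have ht' := ht.inter (ms_source (I := I) x)
  rw [Measure.restrict_apply ht, Measure.sum_apply _ ht', ← cm_inter x a ht,
    measure_part h1 h2 h3 _ ht']
  refine tsum_congr fun n => ?_
  by_cases h : ∃ x, D n ⊆ (extChartAt I x).source
  · simp only [ν, dif_pos h]
    rw [Measure.restrict_apply ht']
    exact cm_agree a (ht'.inter (h1 n)) (fun y hy => hy.1.2) fun y hy => h.choose_spec hy.2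
  · simp only [ν, dif_neg h]
    rw [(h4 n).resolve_right h]
    simp

theorem isDens_dens (a : M → Ext E) : IsDens I a (dens I a) := by
  rw [dens, dif_pos (exists_isDens a)]
  exact (exists_isDens a).choose_spec

/-- **chart formula** -/
theorem dens_restrict (a : M → Ext E) (x : M) :
    (dens I a).restrict (extChartAt I x).source = cm I x a := isDens_dens a x

theorem IsDens.apply {a : M → Ext E} {μ : Measure M} (h : IsDens I a μ) {x : M} {s : Set M}
    (hs : MeasurableSet s) (hx : s ⊆ (extChartAt I x).source) : μ s = cm I x a s := by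
  rw [← h x, Measure.restrict_apply hs, inter_eq_left.2 hx]

theorem dens_apply (a : M → Ext E) {x : M} {s : Set M} (hs : MeasurableSet s)
    (hx : s ⊆ (extChartAt I x).source) : dens I a s = cm I x a s := (isDens_dens a).apply hs hx

variable (I) in
/-- two measures that agree on the measurable subsets of chart domains are equal -/
theorem ext_chart {μ ν : Measure M}
    (h : ∀ x s, MeasurableSet s → s ⊆ (extChartAt I x).source → μ s = ν s) : μ = ν := by
  obtain ⟨D, h1, h2, h3, h4⟩ := exists_part I M
  refine Measure.ext fun t ht => ?_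
  rw [measure_part h1 h2 h3 _ ht, measure_part h1 h2 h3 ν ht]
  refine tsum_congr fun n => ?_
  rcases h4 n with h0 | ⟨x, hx⟩
  · simp [h0]
  · exact h x _ (ht.inter (h1 n)) fun y hy => hx hy.2

theorem IsDens.eq_dens {a : M → Ext E} {μ : Measure M} (h : IsDens I a μ) : μ = dens I a :=
  ext_chart I fun _ _ hs hx => (h.apply hs hx).trans (dens_apply a hs hx).symm

/-- the pieces used to localise a map -/
theorem exists_part₂ {f : N → M} {s : Set N} (hs : MeasurableSet s) (hc : ContinuousOn f s) :
    ∃ D : ℕ × ℕ → Set N, (∀ n, MeasurableSet (D n)) ∧ Pairwise (Disjoint on D) ∧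
      ⋃ n, D n = s ∧ ∀ n, D n = ∅ ∨ ∃ z x, D n ⊆ (extChartAt J z).source ∧
        f '' D n ⊆ (extChartAt I x).source := by
  obtain ⟨D, h1, h2, h3, h4⟩ := exists_part I M
  obtain ⟨D', h1', h2', h3', h4'⟩ := exists_part J N
  refine ⟨fun n => D' n.1 ∩ (s ∩ f ⁻¹' D n.2), fun n => (h1' _).inter (ms_inter hc hs (h1 _)),
    fun n m hnm => ?_, ?_, fun n => ?_⟩
  · by_cases h : n.1 = m.1
    · have h' : n.2 ≠ m.2 := fun h' => hnm (Prod.ext h h')
      exact ((h2 h').preimage f).mono (fun y hy => hy.2.2) fun y hy => hy.2.2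
    · exact (h2' h).mono inter_subset_left inter_subset_left
  · refine subset_antisymm (iUnion_subset fun n y hy => hy.2.1) fun y hy => ?_
    obtain ⟨i, hi⟩ := mem_iUnion.1 (h3' ▸ mem_univ y : y ∈ ⋃ n, D' n)
    obtain ⟨j, hj⟩ := mem_iUnion.1 (h3 ▸ mem_univ (f y) : f y ∈ ⋃ n, D n)
    exact mem_iUnion.2 ⟨(i, j), hi, hy, hj⟩
  · rcases h4' n.1 with h0 | ⟨z, hz⟩
    · left; simp [h0]
    rcases h4 n.2 with h0 | ⟨x, hx⟩
    · left; simp [h0]
    exact Or.inr ⟨z, x, fun y hy => hz hy.1, by rintro _ ⟨y, hy, rfl⟩; exact hx hy.2.2⟩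

variable {f : N → M} {s : Set N}

theorem ms_image (hs : MeasurableSet s) (hd : ∀ w ∈ s, MDifferentiableAt J I f w)
    (hi : InjOn f s) : MeasurableSet (f '' s) := by
  obtain ⟨D, h1, -, h3, h4⟩ := exists_part₂ (I := I) (J := J) hs
    fun w hw => (hd w hw).continuousAt.continuousWithinAt
  have hD : ∀ n, D n ⊆ s := fun n => h3 ▸ subset_iUnion D n
  rw [← h3, image_iUnion]
  refine MeasurableSet.iUnion fun n => ?_
  rcases h4 n with h0 | ⟨z, x, hz, hx⟩
  · simp [h0]
  · exact ms_image_loc (h1 n) (fun w hw => hd w (hD n hw)) (hi.mono (hD n)) hz hx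

/-- **change of variables**, for sets -/
theorem dens_image (h : finrank ℝ E = finrank ℝ E') (a : M → Ext E) (hs : MeasurableSet s)
    (hd : ∀ w ∈ s, MDifferentiableAt J I f w) (hi : InjOn f s) :
    dens I a (f '' s) = dens J (pm J I f a) s := by
  obtain ⟨D, h1, h2, h3, h4⟩ := exists_part₂ (I := I) (J := J) hs
    fun w hw => (hd w hw).continuousAt.continuousWithinAt
  have hD : ∀ n, D n ⊆ s := fun n => h3 ▸ subset_iUnion D n
  have h5 : ∀ n, MeasurableSet (f '' D n) := fun n =>
    ms_image (h1 n) (fun w hw => hd w (hD n hw)) (hi.mono (hD n))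
  have h6 : Pairwise (Disjoint on fun n => f '' D n) := fun n m hnm =>
    (h2 hnm).image hi (hD n) (hD m)
  conv_lhs => rw [← h3, image_iUnion, measure_iUnion h6 h5]
  conv_rhs => rw [← h3, measure_iUnion h2 h1]
  refine tsum_congr fun n => ?_
  rcases h4 n with h0 | ⟨z, x, hz, hx⟩
  · simp [h0]
  · rw [dens_apply a (h5 n) hx, dens_apply _ (h1 n) hz]
    exact cm_image_loc h a (h1 n) (fun w hw => hd w (hD n hw)) (hi.mono (hD n)) hz hx

theorem measurableEmbedding_restrict (hs : MeasurableSet s)
    (hd : ∀ w ∈ s, MDifferentiableAt J I f w) (hi : InjOn f s) :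
    MeasurableEmbedding (s.domRestrict f) := by
  refine ⟨hi.injective, (ContinuousOn.domRestrict
    fun w hw => (hd w hw).continuousAt.continuousWithinAt).measurable, fun t ht => ?_⟩
  have h1 : s.domRestrict f '' t = f '' (Subtype.val '' t) := by rw [image_image]; rfl
  have h2 : (Subtype.val '' t : Set N) ⊆ s := Subtype.coe_image_subset s t
  rw [h1]
  exact ms_image (hs.subtype_image ht) (fun w hw => hd w (h2 hw)) (hi.mono h2)

/-- **change of variables**, for measures -/
theorem map_dens (h : finrank ℝ E = finrank ℝ E') (a : M → Ext E) (hs : MeasurableSet s)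
    (hd : ∀ w ∈ s, MDifferentiableAt J I f w) (hi : InjOn f s) :
    ((dens J (pm J I f a)).restrict s).map f = (dens I a).restrict (f '' s) := by
  have hc : ContinuousOn f s := fun w hw => (hd w hw).continuousAt.continuousWithinAt
  refine Measure.ext fun t ht => ?_
  rw [Measure.map_apply_of_aemeasurable (hc.aemeasurable hs) ht, Measure.restrict_apply' hs,
    Measure.restrict_apply ht, inter_comm, ← dens_image h a (ms_inter hc hs ht)
      (fun w hw => hd w hw.1) (hi.mono inter_subset_left), image_inter_preimage, inter_comm]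

theorem map_restrict_dens (h : finrank ℝ E = finrank ℝ E') (a : M → Ext E) (hs : MeasurableSet s)
    (hd : ∀ w ∈ s, MDifferentiableAt J I f w) (hi : InjOn f s) :
    ((dens J (pm J I f a)).comap (Subtype.val : s → N)).map (s.domRestrict f) =
      (dens I a).restrict (f '' s) := by
  have hc : ContinuousOn f s := fun w hw => (hd w hw).continuousAt.continuousWithinAt
  rw [← map_dens h a hs hd hi, ← map_comap_subtype_coe hs, AEMeasurable.map_map_of_aemeasurable]
  · rfl
  · rw [map_comap_subtype_coe hs]; exact hc.aemeasurable hs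
  · exact measurable_subtype_coe.aemeasurable

/-- **change of variables**, for integrals; no measurability of `g` is needed -/
theorem setIntegral_image {V : Type*} [NormedAddCommGroup V] [NormedSpace ℝ V]
    (h : finrank ℝ E = finrank ℝ E') (a : M → Ext E) (hs : MeasurableSet s)
    (hd : ∀ w ∈ s, MDifferentiableAt J I f w) (hi : InjOn f s) (g : M → V) :
    ∫ x in f '' s, g x ∂(dens I a) = ∫ y in s, g (f y) ∂(dens J (pm J I f a)) := by
  rw [← map_restrict_dens h a hs hd hi, (measurableEmbedding_restrict hs hd hi).integral_map,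
    ← integral_subtype_comap hs]
  rfl

theorem setLIntegral_image (h : finrank ℝ E = finrank ℝ E') (a : M → Ext E) (hs : MeasurableSet s)
    (hd : ∀ w ∈ s, MDifferentiableAt J I f w) (hi : InjOn f s) (g : M → ℝ≥0∞) :
    ∫⁻ x in f '' s, g x ∂(dens I a) = ∫⁻ y in s, g (f y) ∂(dens J (pm J I f a)) := by
  rw [← map_restrict_dens h a hs hd hi, (measurableEmbedding_restrict hs hd hi).lintegral_map,
    ← lintegral_subtype_comap hs]
  rfl

theorem integrableOn_image {V : Type*} [NormedAddCommGroup V]
    (h : finrank ℝ E = finrank ℝ E') (a : M → Ext E) (hs : MeasurableSet s)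
    (hd : ∀ w ∈ s, MDifferentiableAt J I f w) (hi : InjOn f s) (g : M → V) :
    IntegrableOn g (f '' s) (dens I a) ↔ IntegrableOn (g ∘ f) s (dens J (pm J I f a)) := by
  rw [IntegrableOn, ← map_restrict_dens h a hs hd hi,
    (measurableEmbedding_restrict hs hd hi).integrable_map_iff, integrableOn_iff_comap_subtypeVal hs]
  rfl

/-- the measure only depends on the absolute value of the top coefficient -/
theorem dens_congr_on {a b : M → Ext E} {t : Set M} (ht : MeasurableSet t)
    (h : ∀ x ∈ t, |tp E (a x)| = |tp E (b x)|) : (dens I a).restrict t = (dens I b).restrict t := by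
  refine ext_chart I fun x u hu hx => ?_
  have h1 : u ∩ t ⊆ (extChartAt I x).source := fun y hy => hx hy.1
  rw [Measure.restrict_apply hu, Measure.restrict_apply hu, dens_apply a (hu.inter ht) h1,
    dens_apply b (hu.inter ht) h1, cm_apply _ _ (hu.inter ht), cm_apply _ _ (hu.inter ht)]
  refine setLIntegral_congr_fun (ms_cimg x (hu.inter ht)) fun y hy => ?_
  simp only [cd, rp]
  rw [tp_pm rfl, tp_pm rfl, abs_mul, abs_mul, h _ hy.2.2]

theorem dens_congr {a b : M → Ext E} (h : ∀ x, |tp E (a x)| = |tp E (b x)|) :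
    dens I a = dens I b := by
  have := dens_congr_on (I := I) MeasurableSet.univ fun x _ => h x
  rwa [Measure.restrict_univ, Measure.restrict_univ] at this

/-- on a normed space -/
theorem dens_model (a : E → Ext E) :
    dens 𝓘(ℝ, E) a = (hm E).withDensity fun y => ENNReal.ofReal |tp E (a y)| := by
  have h := dens_restrict (I := 𝓘(ℝ, E)) a 0
  rw [cm, cn] at h
  simp only [cd, rp_model, extChartAt_model_space_eq_id, PartialEquiv.refl_source,
    PartialEquiv.refl_target, Measure.restrict_univ, PartialEquiv.refl_symm,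
    PartialEquiv.refl_coe, Measure.map_id] at h
  exact h

end Crest.Agent.X212.Int54
end
end

-- ▼ part X212/Int54/Defs

/-!
# X212/Int54/Defs (helper54): orientation forms and the integral of a form

* `Ori I o`   : `o` is a smooth form whose top part vanishes nowhere;
* `rat o a x` : the quotient of the top parts, `integOn I o a s`, `integ I o a` the integrals;
* `SameOn o o' s` : same orientation on `s`; `integOn_congr_ori`, `integOn_image`, `integ_diffeo`.
-/

set_option autoImplicit false
set_option linter.unusedSectionVars false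

open Set Filter Topology Function Module MeasureTheory
open scoped ContDiff ENNReal Manifold
open Crest.Agent.R208.F Crest.Agent.X212.Dr59

noncomputable section

namespace Crest.Agent.X212.Int54

variable {E : Type*} [NormedAddCommGroup E] [NormedSpace ℝ E] [FiniteDimensional ℝ E]
  [MeasurableSpace E] [BorelSpace E]
  {H : Type*} [TopologicalSpace H] {I : ModelWithCorners ℝ E H} [I.Boundaryless]
  {M : Type*} [TopologicalSpace M] [ChartedSpace H M] [IsManifold I ∞ M]
  [MeasurableSpace M] [BorelSpace M]
  {E' : Type*} [NormedAddCommGroup E'] [NormedSpace ℝ E'] [FiniteDimensional ℝ E']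
  [MeasurableSpace E'] [BorelSpace E']
  {H' : Type*} [TopologicalSpace H'] {J : ModelWithCorners ℝ E' H'} [J.Boundaryless]
  {N : Type*} [TopologicalSpace N] [ChartedSpace H' N] [IsManifold J ∞ N]
  [MeasurableSpace N] [BorelSpace N]

variable (I) in
/-- an orientation form -/
structure Ori (o : M → Ext E) : Prop where
  sm : ∀ x, SmAt I o x
  ne : ∀ x, tp E (o x) ≠ 0

/-- quotient of the top parts -/
def rat (o a : M → Ext E) (x : M) : ℝ := tp E (a x) / tp E (o x)

variable (I) in
/-- integral of the top part of `a` over `s`, oriented by `o` -/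
def integOn (o a : M → Ext E) (s : Set M) : ℝ := ∫ x in s, rat o a x ∂(dens I o)

variable (I) in
/-- integral of the top part of `a` over `M`, oriented by `o` -/
def integ (o a : M → Ext E) : ℝ := ∫ x, rat o a x ∂(dens I o)

variable (I) in
/-- the top part of `a` is integrable on `s` -/
def IntOn (o a : M → Ext E) (s : Set M) : Prop := IntegrableOn (rat o a) s (dens I o)

/-- `o` and `o'` define the same orientation on `s` -/
def SameOn (o o' : M → Ext E) (s : Set M) : Prop := ∀ x ∈ s, 0 < tp E (o x) * tp E (o' x)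

theorem integOn_univ (o a : M → Ext E) : integOn I o a univ = integ I o a := by
  rw [integOn, Measure.restrict_univ, integ]

/-! ### algebra of `rat` -/

section rat
variable {o o' a b : M → Ext E} {x : M}

theorem rat_add (o a b : M → Ext E) : rat o (a + b) = rat o a + rat o b := by
  funext x; simp [rat, add_div]

theorem rat_sub (o a b : M → Ext E) : rat o (a - b) = rat o a - rat o b := by
  funext x; simp [rat, sub_div]

theorem rat_neg (o a : M → Ext E) : rat o (-a) = -rat o a := by
  funext x; simp [rat, neg_div]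

theorem rat_neg_left (o a : M → Ext E) : rat (-o) a = -rat o a := by
  funext x; simp [rat, div_neg]

theorem rat_smul (o : M → Ext E) (r : ℝ) (a : M → Ext E) : rat o (r • a) = r • rat o a := by
  funext x; simp [rat, mul_div_assoc]

theorem rat_fsmul (o : M → Ext E) (g : M → ℝ) (a : M → Ext E) :
    rat o (g • a) = g * rat o a := by
  funext x; simp [rat, mul_div_assoc]

@[simp] theorem rat_zero (o : M → Ext E) : rat o 0 = 0 := by
  funext x; simp [rat]

theorem rat_sum {ι : Type*} (o : M → Ext E) (s : Finset ι) (c : ι → M → Ext E) :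
    rat o (∑ i ∈ s, c i) = ∑ i ∈ s, rat o (c i) := by
  funext x; simp [rat, Finset.sum_div]

theorem rat_self (h : tp E (o x) ≠ 0) : rat o o x = 1 := div_self h

theorem rat_of_zero (h : a x = 0) : rat o a x = 0 := by simp [rat, h]

theorem rat_mul_tp (h : tp E (o x) ≠ 0) : rat o a x * tp E (o x) = tp E (a x) :=
  div_mul_cancel₀ _ h

theorem rat_mul_rat (h : tp E (o' x) ≠ 0) : rat o o' x * rat o' a x = rat o a x := by
  simp only [rat]; field_simp

theorem support_rat (o a : M → Ext E) : support (rat o a) ⊆ support a := fun _ hx h =>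
  hx (rat_of_zero h)

theorem hcs_rat (h : HasCompactSupport a) : HasCompactSupport (rat o a) :=
  h.mono (support_rat o a)

/-- the quotient can be read on any independent family of `n = dim E` vectors -/
theorem rat_eq {n : ℕ} (h : finrank ℝ E = n) {v : Fin n → E} (hv : LinearIndependent ℝ v)
    (o a : M → Ext E) (x : M) : rat o a x = evA E n (a x) v / evA E n (o x) v := tp_div h hv _ _

theorem rat_pm (h : finrank ℝ E = finrank ℝ E') {f : N → M} {y : N} (hf : jac (mf J I f y) ≠ 0)
    (o a : M → Ext E) : rat (pm J I f o) (pm J I f a) y = rat o a (f y) := by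
  rw [rat, tp_pm h, tp_pm h, mul_div_mul_left _ _ hf, rat]

theorem SameOn.symm {s : Set M} (h : SameOn o o' s) : SameOn o' o s := fun x hx => by
  rw [mul_comm]; exact h x hx

theorem SameOn.mono {s t : Set M} (h : SameOn o o' s) (ht : t ⊆ s) : SameOn o o' t :=
  fun x hx => h x (ht hx)

theorem SameOn.rat_pos {s : Set M} (h : SameOn o o' s) (hx : x ∈ s) : 0 < rat o o' x := by
  rw [rat, div_pos_iff, ← mul_pos_iff, mul_comm]; exact h x hx

theorem sameOn_of_rat_pos {s : Set M} (h : ∀ x ∈ s, 0 < rat o o' x) : SameOn o o' s :=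
  fun x hx => by
    have := h x hx
    rwa [rat, div_pos_iff, ← mul_pos_iff, mul_comm] at this

theorem SameOn.trans {s : Set M} {o'' : M → Ext E} (h : SameOn o o' s) (h' : SameOn o' o'' s) :
    SameOn o o'' s := sameOn_of_rat_pos fun x hx => by
  rw [← rat_mul_rat (o' := o') (right_ne_zero_of_mul (h x hx).ne')]
  exact mul_pos (h.rat_pos hx) (h'.rat_pos hx)

theorem Ori.same (ho : Ori I o) (s : Set M) : SameOn o o s := fun x _ => mul_self_pos.2 (ho.ne x)

theorem sameOn_fsmul {s : Set M} {g : M → ℝ} (ho : ∀ x ∈ s, tp E (o x) ≠ 0)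
    (hg : ∀ x ∈ s, 0 < g x) : SameOn o (g • o) s := sameOn_of_rat_pos fun x hx => by
  rw [rat_fsmul, Pi.mul_apply, rat_self (ho x hx), mul_one]; exact hg x hx

end rat

/-! ### charts -/

theorem jac_chart_symm {x : M} {u : E} (hu : u ∈ (extChartAt I x).target) :
    jac (mf 𝓘(ℝ, E) I (extChartAt I x).symm u) ≠ 0 := by
  have h1 := (extChartAt I x).map_target hu
  have c1 := (contMDiffAt_chart_symm hu).mdifferentiableAt (by simp)
  have c2 := (contMDiffAt_chart h1).mdifferentiableAt (by simp)
  have h2 : mf 𝓘(ℝ, E) 𝓘(ℝ, E) (extChartAt I x ∘ (extChartAt I x).symm) u =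
      ContinuousLinearMap.id ℝ E := by
    rw [← mf_id (I := 𝓘(ℝ, E)) u]
    refine mf_congr ?_
    filter_upwards [(isOpen_extChartAt_target x).mem_nhds hu] with v hv
    exact (extChartAt I x).right_inv hv
  have h3 := jac_comp rfl rfl (mf I 𝓘(ℝ, E) (extChartAt I x) ((extChartAt I x).symm u))
    (mf 𝓘(ℝ, E) I (extChartAt I x).symm u)
  rw [← mf_comp c2 c1, h2, jac_id] at h3
  exact left_ne_zero_of_mul_eq_one h3.symm

theorem cd_eq (x : M) (a : M → Ext E) (u : E) :
    cd I x a u = jac (mf 𝓘(ℝ, E) I (extChartAt I x).symm u) * tp E (a ((extChartAt I x).symm u)) :=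
  tp_pm rfl _ _ _

theorem rat_chart {x : M} {u : E} (hu : u ∈ (extChartAt I x).target) (o a : M → Ext E) :
    rat o a ((extChartAt I x).symm u) = cd I x a u / cd I x o u :=
  (rat_pm (J := 𝓘(ℝ, E)) rfl (jac_chart_symm hu) o a).symm

theorem cd_ne {x : M} {u : E} (hu : u ∈ (extChartAt I x).target) {o : M → Ext E}
    (ho : tp E (o ((extChartAt I x).symm u)) ≠ 0) : cd I x o u ≠ 0 := by
  rw [cd_eq]; exact mul_ne_zero (jac_chart_symm hu) ho

theorem contDiffAt_cd {n : WithTop ℕ∞} (hn : n ≤ (∞ : WithTop ℕ∞)) {x : M} {u : E}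
    (hu : u ∈ (extChartAt I x).target) {a : M → Ext E} (ha : CAt I n a ((extChartAt I x).symm u)) :
    ContDiffAt ℝ n (cd I x a) u := by
  have h := ha.chart hn ((extChartAt I x).map_target hu)
  rw [(extChartAt I x).right_inv hu] at h
  exact (tp E).contDiff.contDiffAt.comp u h

theorem continuousOn_cd {a : M → Ext E} (ha : ∀ x, CAt I 0 a x) (x : M) :
    ContinuousOn (cd I x a) (extChartAt I x).target := fun _ hu =>
  (contDiffAt_cd (by simp) hu (ha _)).continuousAt.continuousWithinAt

theorem contMDiffAt_rat {n : WithTop ℕ∞} (hn : n ≤ (∞ : WithTop ℕ∞)) {o a : M → Ext E} {x : M}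
    (ho : CAt I n o x) (h0 : tp E (o x) ≠ 0) (ha : CAt I n a x) :
    ContMDiffAt I 𝓘(ℝ, ℝ) n (rat o a) x := by
  have hx := mem_extChartAt_target (I := I) x
  have e := extChartAt_to_inv (I := I) x
  have h1 : ContDiffAt ℝ n (fun u => cd I x a u / cd I x o u) (extChartAt I x x) :=
    (contDiffAt_cd hn hx (by rwa [e])).div (contDiffAt_cd hn hx (by rwa [e]))
      (cd_ne hx (by rwa [e]))
  refine (h1.contMDiffAt.comp x
    ((contMDiffAt_chart (mem_extChartAt_source x)).of_le hn)).congr_of_eventuallyEq ?_
  filter_upwards [extChartAt_source_mem_nhds (I := I) x] with y hy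
  rw [comp_apply, ← rat_chart ((extChartAt I x).map_source hy), (extChartAt I x).left_inv hy]

theorem Ori.c0 {o : M → Ext E} (ho : Ori I o) (x : M) : CAt I 0 o x := (ho.sm x).of_le (by simp)

theorem Ori.continuous_rat {o a : M → Ext E} (ho : Ori I o) (ha : ∀ x, CAt I 0 a x) :
    Continuous (rat o a) := continuous_iff_continuousAt.2 fun x =>
  (contMDiffAt_rat (by simp) (ho.c0 x) (ho.ne x) (ha x)).continuousAt

theorem Ori.contMDiff_rat {o a : M → Ext E} (ho : Ori I o) (ha : ∀ x, SmAt I a x) :
    ContMDiff I 𝓘(ℝ, ℝ) ∞ (rat o a) := fun x =>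
  contMDiffAt_rat le_rfl (ho.sm x) (ho.ne x) (ha x)

theorem Ori.neg {o : M → Ext E} (ho : Ori I o) : Ori I (-o) :=
  ⟨fun x => (ho.sm x).neg, fun x => by simpa using ho.ne x⟩

theorem Ori.fsmul {o : M → Ext E} (ho : Ori I o) {g : M → ℝ} (hg : ContMDiff I 𝓘(ℝ, ℝ) ∞ g)
    (h0 : ∀ x, g x ≠ 0) : Ori I (g • o) :=
  ⟨fun x => (ho.sm x).fsmul le_rfl (hg x), fun x => by simpa using ⟨h0 x, ho.ne x⟩⟩

theorem jac_of_ld {f : N → M} {y : N} (hf : IsLocalDiffeomorphAt J I ∞ f y) :
    jac (mf J I f y) ≠ 0 :=
  jac_ne_zero (E := E') (F := E) (hf.mfderivToContinuousLinearEquiv (by simp))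

theorem finrank_of_ld {f : N → M} {y : N} (hf : IsLocalDiffeomorphAt J I ∞ f y) :
    finrank ℝ E = finrank ℝ E' :=
  (show E' ≃L[ℝ] E from hf.mfderivToContinuousLinearEquiv (by simp)).toLinearEquiv.finrank_eq.symm

/-- pull-back of an orientation by a local diffeomorphism -/
theorem Ori.pm {o : M → Ext E} (ho : Ori I o) {f : N → M} (hf : IsLocalDiffeomorph J I ∞ f) :
    Ori J (pm J I f o) :=
  ⟨fun y => (ho.sm _).pm (hf y).contMDiffAt, fun y => by
    rw [tp_pm (finrank_of_ld (hf y))]; exact mul_ne_zero (jac_of_ld (hf y)) (ho.ne _)⟩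

theorem SameOn.pm {o o' : M → Ext E} {f : N → M} {s : Set N} {t : Set M} (h : SameOn o o' t)
    (hf : ∀ y ∈ s, IsLocalDiffeomorphAt J I ∞ f y) (hs : MapsTo f s t) :
    SameOn (pm J I f o) (pm J I f o') s := sameOn_of_rat_pos fun y hy => by
  rw [rat_pm (finrank_of_ld (hf y hy)) (jac_of_ld (hf y hy))]; exact h.rat_pos (hs hy)

/-- on a preconnected set two orientations agree as soon as they agree at one point -/
theorem Ori.sameOn_of_pt {o o' : M → Ext E} (ho : Ori I o) (ho' : Ori I o') {s : Set M}
    (hs : IsPreconnected s) {x : M} (hx : x ∈ s) (h : 0 < rat o o' x) : SameOn o o' s := by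
  refine sameOn_of_rat_pos fun y hy => ?_
  by_contra hn
  obtain ⟨z, -, hz⟩ := hs.intermediate_value hy hx (ho.continuous_rat ho'.c0).continuousOn
    (show (0 : ℝ) ∈ Icc _ _ from ⟨not_lt.1 hn, h.le⟩)
  exact div_ne_zero (ho'.ne z) (ho.ne z) hz

theorem Ori.sameOn_or {o o' : M → Ext E} (ho : Ori I o) (ho' : Ori I o') {s : Set M}
    (hs : IsPreconnected s) : SameOn o o' s ∨ SameOn o (-o') s := by
  rcases s.eq_empty_or_nonempty with rfl | ⟨x, hx⟩
  · exact Or.inl fun _ h => h.elim
  rcases lt_or_gt_of_ne (show rat o o' x ≠ 0 from div_ne_zero (ho'.ne x) (ho.ne x)) with h | h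
  · exact Or.inr (ho.sameOn_of_pt ho'.neg hs hx (by rw [rat_neg]; simpa using h))
  · exact Or.inl (ho.sameOn_of_pt ho' hs hx h)

variable [SecondCountableTopology M] [SecondCountableTopology N]

/-! ### the measure of a continuous form -/

theorem lintegral_cm {a : M → Ext E} (ha : ∀ x, CAt I 0 a x) (x : M) {g : M → ℝ≥0∞}
    (hg : AEMeasurable g (cm I x a)) : ∫⁻ y, g y ∂(cm I x a) = ∫⁻ u in (extChartAt I x).target,
      ENNReal.ofReal |cd I x a u| * g ((extChartAt I x).symm u) ∂(hm E) := by
  rw [cm, lintegral_map' hg (aemeas_symm x a), cn,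
    lintegral_withDensity_eq_lintegral_mul_non_measurable₀ _
      (((continuousOn_cd ha x).abs.aemeasurable (ms_target x)).ennreal_ofReal)
      (Eventually.of_forall fun _ => ENNReal.ofReal_lt_top)]
  rfl

theorem dens_fsmul {a : M → Ext E} (ha : ∀ x, CAt I 0 a x) {g : M → ℝ} (hg : Measurable g) :
    dens I (g • a) = (dens I a).withDensity fun x => ENNReal.ofReal |g x| := by
  symm
  refine IsDens.eq_dens fun x => ?_
  have hG : Measurable fun x => ENNReal.ofReal |g x| := hg.abs.ennreal_ofReal
  rw [restrict_withDensity (ms_source x), dens_restrict]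
  refine Measure.ext fun t ht => ?_
  rw [withDensity_apply _ ht, ← lintegral_indicator ht,
    lintegral_cm ha x (hG.indicator ht).aemeasurable, cm_apply x _ ht,
    ← lintegral_indicator (ms_target x), ← lintegral_indicator (ms_cimg x ht)]
  refine lintegral_congr fun u => ?_
  by_cases hu : u ∈ (extChartAt I x).target
  · by_cases hu' : (extChartAt I x).symm u ∈ t
    · rw [indicator_of_mem hu, indicator_of_mem hu', indicator_of_mem (show u ∈ _ ∩ _ from ⟨hu, hu'⟩),
        ← ENNReal.ofReal_mul (abs_nonneg _), ← abs_mul, cd_eq, cd_eq]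
      congr 2
      simp only [Pi.smul_apply', map_smul, smul_eq_mul]
      ring
    · rw [indicator_of_mem hu, indicator_of_notMem hu', mul_zero,
        indicator_of_notMem (show u ∉ _ ∩ (extChartAt I x).symm ⁻¹' t from fun h => hu' h.2)]
  · rw [indicator_of_notMem hu, indicator_of_notMem fun h => hu (mem_of_mem_inter_left h)]

theorem dens_neg (a : M → Ext E) : dens I (-a) = dens I a := dens_congr fun x => by simp

/-- `dens a = |a / o| dens o` -/
theorem Ori.dens_eq {o a : M → Ext E} (ho : Ori I o) (ha : Measurable (rat o a)) :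
    dens I a = (dens I o).withDensity fun x => ENNReal.ofReal |rat o a x| := by
  rw [← dens_fsmul ho.c0 ha]
  exact dens_congr fun x => by
    simp only [Pi.smul_apply', map_smul, smul_eq_mul, rat_mul_tp (ho.ne x)]

theorem isLocallyFinite_dens {a : M → Ext E} (ha : ∀ x, CAt I 0 a x) :
    IsLocallyFiniteMeasure (dens I a) := by
  refine ⟨fun x => ?_⟩
  have hx := mem_extChartAt_target (I := I) x
  obtain ⟨K, hK, hxK, hKt⟩ := exists_compact_subset (isOpen_extChartAt_target (I := I) x) hx
  have hs : MeasurableSet ((extChartAt I x).source ∩ extChartAt I x ⁻¹' K) :=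
    ms_inter (continuousOn_extChartAt x) (ms_source x) hK.measurableSet
  refine ⟨(extChartAt I x).source ∩ extChartAt I x ⁻¹' K, inter_mem (extChartAt_source_mem_nhds x)
    ((continuousAt_extChartAt x).preimage_mem_nhds (mem_interior_iff_mem_nhds.1 hxK)), ?_⟩
  rw [dens_apply a hs inter_subset_left, cm_apply x a hs]
  have h1 : (extChartAt I x).target ∩ (extChartAt I x).symm ⁻¹'
      ((extChartAt I x).source ∩ extChartAt I x ⁻¹' K) ⊆ K := fun u hu => by
    have := hu.2.2
    rwa [mem_preimage, (extChartAt I x).right_inv hu.1] at this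
  refine (lintegral_mono_set h1).trans_lt ?_
  exact (((continuousOn_cd ha x).mono hKt).abs.integrableOn_compact hK).lintegral_lt_top

theorem Ori.locFin {o : M → Ext E} (ho : Ori I o) : IsLocallyFiniteMeasure (dens I o) :=
  isLocallyFinite_dens ho.c0

theorem Ori.finCpt {o : M → Ext E} (ho : Ori I o) : IsFiniteMeasureOnCompacts (dens I o) :=
  haveI := ho.locFin; inferInstance

theorem Ori.openPos {o : M → Ext E} (ho : Ori I o) : (dens I o).IsOpenPosMeasure := by
  refine ⟨fun U hU ⟨x, hx⟩ h0 => ?_⟩
  have hV := hU.inter (isOpen_extChartAt_source (I := I) x)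
  have h1 : dens I o (U ∩ (extChartAt I x).source) = 0 := measure_mono_null inter_subset_left h0
  have hW : IsOpen ((extChartAt I x).target ∩ (extChartAt I x).symm ⁻¹'
      (U ∩ (extChartAt I x).source)) :=
    (continuousOn_extChartAt_symm x).isOpen_inter_preimage (isOpen_extChartAt_target x) hV
  rw [dens_apply o hV.measurableSet inter_subset_right, cm_apply x o hV.measurableSet,
    lintegral_eq_zero_iff' ((((continuousOn_cd ho.c0 x).mono inter_subset_left).abs.aemeasurable
      hW.measurableSet).ennreal_ofReal)] at h1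
  have h2 : ∀ᵐ u ∂((hm E).restrict ((extChartAt I x).target ∩ (extChartAt I x).symm ⁻¹'
      (U ∩ (extChartAt I x).source))), False := by
    filter_upwards [h1, ae_restrict_mem hW.measurableSet] with u hu hu'
    exact (ENNReal.ofReal_pos.2 (abs_pos.2 (cd_ne hu'.1 (ho.ne _)))).ne' hu
  rw [eventually_false_iff_eq_bot, ae_eq_bot, Measure.restrict_eq_zero] at h2
  refine hW.measure_ne_zero (hm E) ⟨extChartAt I x x, mem_extChartAt_target x, ?_⟩ h2
  rw [mem_preimage, extChartAt_to_inv]
  exact ⟨hx, mem_extChartAt_source x⟩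

/-! ### the integral -/

section integ
variable {o o' a b : M → Ext E} {s t : Set M}

theorem Ori.intOn_of_hcs [T2Space M] (ho : Ori I o) (ha : ∀ x, CAt I 0 a x)
    (hc : HasCompactSupport a) (s : Set M) : IntOn I o a s :=
  haveI := ho.finCpt
  ((ho.continuous_rat ha).integrable_of_hasCompactSupport (hcs_rat hc)).integrableOn

theorem Ori.intOn_compact [T2Space M] (ho : Ori I o) (ha : ∀ x, CAt I 0 a x) (hs : IsCompact s) :
    IntOn I o a s :=
  haveI := ho.finCpt
  (ho.continuous_rat ha).continuousOn.integrableOn_compact hs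

theorem Ori.intOn [T2Space M] [CompactSpace M] (ho : Ori I o) (ha : ∀ x, CAt I 0 a x)
    (s : Set M) : IntOn I o a s := ho.intOn_of_hcs ha (HasCompactSupport.of_compactSpace a) s

theorem IntOn.mono (h : IntOn I o a s) (ht : t ⊆ s) : IntOn I o a t := h.mono_set ht

theorem IntOn.integrable (h : IntOn I o a univ) : Integrable (rat o a) (dens I o) :=
  integrableOn_univ.1 h

theorem IntOn.add (ha : IntOn I o a s) (hb : IntOn I o b s) : IntOn I o (a + b) s := by
  rw [IntOn, rat_add]; exact IntegrableOn.add ha hb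

theorem IntOn.neg (ha : IntOn I o a s) : IntOn I o (-a) s := by
  rw [IntOn, rat_neg]; exact IntegrableOn.neg ha

theorem IntOn.sub (ha : IntOn I o a s) (hb : IntOn I o b s) : IntOn I o (a - b) s := by
  rw [IntOn, rat_sub]; exact IntegrableOn.sub ha hb

theorem IntOn.smul (r : ℝ) (ha : IntOn I o a s) : IntOn I o (r • a) s := by
  rw [IntOn, rat_smul]; exact Integrable.smul r ha

theorem integOn_add (ha : IntOn I o a s) (hb : IntOn I o b s) :
    integOn I o (a + b) s = integOn I o a s + integOn I o b s := by
  rw [integOn, rat_add]; exact integral_add ha hb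

theorem integOn_sub (ha : IntOn I o a s) (hb : IntOn I o b s) :
    integOn I o (a - b) s = integOn I o a s - integOn I o b s := by
  rw [integOn, rat_sub]; exact integral_sub ha hb

theorem integOn_neg (o a : M → Ext E) (s : Set M) : integOn I o (-a) s = -integOn I o a s := by
  rw [integOn, rat_neg]; exact integral_neg _

theorem integOn_smul (o : M → Ext E) (r : ℝ) (a : M → Ext E) (s : Set M) :
    integOn I o (r • a) s = r * integOn I o a s := by
  rw [integOn, rat_smul]; exact integral_smul r _

@[simp] theorem integOn_zero (o : M → Ext E) (s : Set M) : integOn I o 0 s = 0 := by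
  simp [integOn]

theorem integOn_sum {ι : Type*} {u : Finset ι} {c : ι → M → Ext E}
    (h : ∀ i ∈ u, IntOn I o (c i) s) :
    integOn I o (∑ i ∈ u, c i) s = ∑ i ∈ u, integOn I o (c i) s := by
  rw [integOn, rat_sum, Finset.sum_fn]; exact integral_finsetSum u h

/-- reversing the orientation -/
theorem integOn_neg_ori (o a : M → Ext E) (s : Set M) :
    integOn I (-o) a s = -integOn I o a s := by
  rw [integOn, rat_neg_left, dens_neg]; exact integral_neg _

theorem integOn_congr (hs : MeasurableSet s) (h : ∀ x ∈ s, tp E (a x) = tp E (b x)) :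
    integOn I o a s = integOn I o b s :=
  setIntegral_congr_fun hs fun x hx => by simp only [rat, h x hx]

theorem integOn_union (hd : Disjoint s t) (ht : MeasurableSet t) (h1 : IntOn I o a s)
    (h2 : IntOn I o a t) : integOn I o a (s ∪ t) = integOn I o a s + integOn I o a t :=
  setIntegral_union hd ht h1 h2

theorem integOn_biUnion {ι : Type*} (u : Finset ι) {D : ι → Set M}
    (hD : ∀ i ∈ u, MeasurableSet (D i)) (hd : Set.Pairwise (u : Set ι) (Disjoint on D))
    (h : ∀ i ∈ u, IntOn I o a (D i)) :
    integOn I o a (⋃ i ∈ u, D i) = ∑ i ∈ u, integOn I o a (D i) :=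
  integral_biUnion_finset u hD hd h

theorem integOn_congr_set (h : s =ᵐ[dens I o] t) : integOn I o a s = integOn I o a t :=
  setIntegral_congr_set h

theorem integ_eq_integOn (h : ∀ x, x ∉ s → tp E (a x) = 0) : integ I o a = integOn I o a s :=
  (setIntegral_eq_integral_of_forall_compl_eq_zero fun x hx => by simp [rat, h x hx]).symm

theorem integ_add (ha : IntOn I o a univ) (hb : IntOn I o b univ) :
    integ I o (a + b) = integ I o a + integ I o b := by
  simp only [← integOn_univ, integOn_add ha hb]

theorem integ_sub (ha : IntOn I o a univ) (hb : IntOn I o b univ) :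
    integ I o (a - b) = integ I o a - integ I o b := by
  simp only [← integOn_univ, integOn_sub ha hb]

theorem integ_neg (o a : M → Ext E) : integ I o (-a) = -integ I o a := by
  simp only [← integOn_univ, integOn_neg]

theorem integ_smul (o : M → Ext E) (r : ℝ) (a : M → Ext E) :
    integ I o (r • a) = r * integ I o a := by
  simp only [← integOn_univ, integOn_smul]

@[simp] theorem integ_zero (o : M → Ext E) : integ I o 0 = 0 := by simp [integ]

theorem integ_sum {ι : Type*} {u : Finset ι} {c : ι → M → Ext E}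
    (h : ∀ i ∈ u, IntOn I o (c i) univ) :
    integ I o (∑ i ∈ u, c i) = ∑ i ∈ u, integ I o (c i) := by
  simp only [← integOn_univ, integOn_sum h]

theorem integ_neg_ori (o a : M → Ext E) : integ I (-o) a = -integ I o a := by
  simp only [← integOn_univ, integOn_neg_ori]

theorem integ_congr (h : ∀ x, tp E (a x) = tp E (b x)) : integ I o a = integ I o b := by
  simp only [← integOn_univ, integOn_congr MeasurableSet.univ fun x _ => h x]

theorem Ori.integOn_fsmul (ho : Ori I o) (g : M → ℝ) (s : Set M) :
    integOn I o (g • o) s = ∫ x in s, g x ∂(dens I o) := by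
  rw [integOn, rat_fsmul]
  simp only [Pi.mul_apply, rat_self (ho.ne _), mul_one]

theorem Ori.integ_fsmul (ho : Ori I o) (g : M → ℝ) :
    integ I o (g • o) = ∫ x, g x ∂(dens I o) := by
  rw [← integOn_univ, ho.integOn_fsmul, Measure.restrict_univ]

/-- **the integral only depends on the orientation** (general version: `o'` is arbitrary, the
quotient `o' / o` is measurable and positive on `s`) -/
theorem Ori.integOn_ori (ho : Ori I o) (hm : Measurable (rat o o')) (hs : MeasurableSet s)
    (h : SameOn o o' s) (a : M → Ext E) : integOn I o' a s = integOn I o a s := by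
  rw [integOn, ho.dens_eq hm, restrict_withDensity hs,
    integral_withDensity_eq_integral_toReal_smul hm.abs.ennreal_ofReal
      (Eventually.of_forall fun _ => ENNReal.ofReal_lt_top)]
  refine setIntegral_congr_fun hs fun x hx => ?_
  simp only [smul_eq_mul]
  rw [ENNReal.toReal_ofReal (abs_nonneg _), abs_of_pos (h.rat_pos hx),
    rat_mul_rat (right_ne_zero_of_mul (h x hx).ne')]

theorem Ori.intOn_ori (ho : Ori I o) (hm : Measurable (rat o o')) (hs : MeasurableSet s)
    (h : SameOn o o' s) (a : M → Ext E) : IntOn I o' a s ↔ IntOn I o a s := by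
  rw [IntOn, IntegrableOn, ho.dens_eq hm, restrict_withDensity hs,
    integrable_withDensity_iff_integrable_smul' hm.abs.ennreal_ofReal
      (Eventually.of_forall fun _ => ENNReal.ofReal_lt_top)]
  refine integrableOn_congr_fun (fun x hx => ?_) hs
  simp only [smul_eq_mul]
  rw [ENNReal.toReal_ofReal (abs_nonneg _), abs_of_pos (h.rat_pos hx),
    rat_mul_rat (right_ne_zero_of_mul (h x hx).ne')]

theorem integOn_congr_ori (ho : Ori I o) (ho' : Ori I o') (hs : MeasurableSet s)
    (h : SameOn o o' s) (a : M → Ext E) : integOn I o a s = integOn I o' a s :=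
  (ho.integOn_ori (ho.continuous_rat ho'.c0).measurable hs h a).symm

theorem integ_congr_ori (ho : Ori I o) (ho' : Ori I o') (h : SameOn o o' univ) (a : M → Ext E) :
    integ I o a = integ I o' a := by
  simp only [← integOn_univ, integOn_congr_ori ho ho' MeasurableSet.univ h]

end integ

end Crest.Agent.X212.Int54
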